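import Mathlib

/-! P038: Seymour's second neighbourhood conjecture and its asymptotic version. -/

namespace P038

open Set

/-- `A` is the arc relation of an oriented graph: no loops and no pair of opposite arcs -/
def Oriented {V : Type} (A : V → V → Prop) : Prop := ∀ u v, A u v → ¬ A v u

/-- first out-neighbourhood -/
def N1 {V : Type} (A : V → V → Prop) (v : V) : Set V := {u | A v u}

/-- second out-neighbourhood -/
def N2 {V : Type} (A : V → V → Prop) (v : V) : Set V :=
  {w | w ≠ v ∧ ¬ A v w ∧ ∃ u, A v u ∧ A u w}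

/-- the second neighbourhood conjecture -/
def SNC : Prop := ∀ (V : Type) [Finite V] [Nonempty V] (A : V → V → Prop), Oriented A →
  ∃ v, (N1 A v).ncard ≤ (N2 A v).ncard

/-- blow-up of the vertex `v` to `s v` vertices -/
def blow {V : Type} (A : V → V → Prop) (s : V → ℕ) (x y : Σ v, Fin (s v)) : Prop := A x.1 y.1

theorem blow_oriented {V : Type} {A : V → V → Prop} (h : Oriented A) (s : V → ℕ) :
    Oriented (blow A s) := fun _ _ hxy => h _ _ hxy

theorem N1_blow {V : Type} (A : V → V → Prop) (s : V → ℕ) (x : Σ v, Fin (s v)) :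
    N1 (blow A s) x = {y | y.1 ∈ N1 A x.1} := rfl

theorem N2_blow {V : Type} {A : V → V → Prop} (h : Oriented A) (s : V → ℕ)
    (hs : ∀ v, 0 < s v) (x : Σ v, Fin (s v)) :
    N2 (blow A s) x = {y | y.1 ∈ N2 A x.1} := by
  ext y
  constructor
  · rintro ⟨_, h2, u, h3, h4⟩
    refine ⟨?_, h2, u.1, h3, h4⟩
    intro he
    have h4' : A u.1 y.1 := h4
    rw [he] at h4'
    exact h _ _ h3 h4'
  · rintro ⟨h1, h2, u, h3, h4⟩
    refine ⟨?_, h2, ⟨u, ⟨0, hs u⟩⟩, h3, h4⟩
    intro he
    exact h1 (by rw [he])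

theorem ncard_lift {V : Type} [Fintype V] (s : V → ℕ) (S : Set V) :
    ({y | y.1 ∈ S} : Set (Σ v, Fin (s v))).ncard = ∑ v ∈ S.toFinite.toFinset, s v := by
  classical
  have h1 : ({y | y.1 ∈ S} : Set (Σ v, Fin (s v)))
      = ((S.toFinite.toFinset.sigma fun v => (Finset.univ : Finset (Fin (s v)))) :
        Set (Σ v, Fin (s v))) := by
    ext y
    simp
  rw [h1, Set.ncard_coe_finset, Finset.card_sigma]
  simp

/-- it is enough to find, for every `ε > 0` and in arbitrarily large order, a vertex which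
satisfies the inequality up to an error `ε n` -/
theorem snc_of_asymptotic
    (h : ∀ ε : ℝ, 0 < ε → ∀ N₀ : ℕ, ∃ N ≥ N₀, ∀ (V : Type) [Finite V] (A : V → V → Prop),
      Nat.card V = N → Oriented A →
        ∃ v, ((N1 A v).ncard : ℝ) ≤ (N2 A v).ncard + ε * N) : SNC := by
  classical
  intro V _ _ A hA
  have : Fintype V := Fintype.ofFinite V
  set n := Fintype.card V with hn
  have hn0 : 0 < n := Fintype.card_pos
  have hnR : (0 : ℝ) < n := by exact_mod_cast hn0
  -- `ε = 1 / (8 n)`, order at least `4 n ^ 2`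
  obtain ⟨N, hN, hV⟩ := h (1 / (8 * n)) (by positivity) (4 * n * n)
  set t := N / n with ht
  set r := N % n with hr
  have hNeq : n * t + r = N := Nat.div_add_mod N n
  have hrn : r < n := Nat.mod_lt _ hn0
  have ht4 : 4 * n ≤ t := by
    rw [ht, Nat.le_div_iff_mul_le hn0]
    exact hN
  obtain ⟨B, _, hB⟩ := Finset.exists_subset_card_eq (s := (Finset.univ : Finset V)) (n := r)
    (by rw [Finset.card_univ]; exact hrn.le)
  set s : V → ℕ := fun v => t + if v ∈ B then 1 else 0 with hs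
  have hs0 : ∀ v, 0 < s v := fun v => by
    simp only [hs]; omega
  have hs1 : ∀ v, t ≤ s v := fun v => by simp only [hs]; omega
  have hs2 : ∀ v, s v ≤ t + 1 := fun v => by
    simp only [hs]; split_ifs <;> omega
  have hcard : Nat.card (Σ v, Fin (s v)) = N := by
    rw [Nat.card_eq_fintype_card, Fintype.card_sigma]
    simp only [Fintype.card_fin, hs]
    rw [Finset.sum_add_distrib]
    simp only [Finset.sum_const, Finset.card_univ, smul_eq_mul, Finset.sum_ite_mem,
      Finset.univ_inter, hB, mul_one]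
    exact hNeq
  obtain ⟨x, hx⟩ := hV _ (blow A s) hcard (blow_oriented hA s)
  refine ⟨x.1, ?_⟩
  rw [N1_blow, N2_blow hA s hs0, ncard_lift, ncard_lift] at hx
  have e1 : (N1 A x.1).ncard * t ≤ ∑ v ∈ (N1 A x.1).toFinite.toFinset, s v := by
    rw [Set.ncard_eq_toFinset_card _ (N1 A x.1).toFinite, ← smul_eq_mul]
    exact Finset.card_nsmul_le_sum _ _ _ fun v _ => hs1 v
  have e2 : ∑ v ∈ (N2 A x.1).toFinite.toFinset, s v ≤ (N2 A x.1).ncard * (t + 1) := by
    rw [Set.ncard_eq_toFinset_card _ (N2 A x.1).toFinite, ← smul_eq_mul]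
    exact Finset.sum_le_card_nsmul _ _ _ fun v _ => hs2 v
  have e3 : (N2 A x.1).ncard ≤ n := by
    rw [hn, ← Nat.card_eq_fintype_card]
    exact Set.ncard_le_card _
  by_contra hcon
  have hcon' : (N2 A x.1).ncard + 1 ≤ (N1 A x.1).ncard := by omega
  have f1 : ((N1 A x.1).ncard : ℝ) * t ≤ (∑ v ∈ (N1 A x.1).toFinite.toFinset, s v : ℕ) := by
    exact_mod_cast e1
  have f2 : ((∑ v ∈ (N2 A x.1).toFinite.toFinset, s v : ℕ) : ℝ) ≤ (N2 A x.1).ncard * (t + 1) := by
    exact_mod_cast e2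
  have f3 : ((N2 A x.1).ncard : ℝ) ≤ n := by exact_mod_cast e3
  have f4 : ((N2 A x.1).ncard : ℝ) + 1 ≤ (N1 A x.1).ncard := by exact_mod_cast hcon'
  have f5 : (4 * n : ℝ) ≤ t := by exact_mod_cast ht4
  have f6 : (N : ℝ) ≤ n * (t + 1) := by
    have : N ≤ n * (t + 1) := by
      rw [← hNeq, Nat.mul_add, Nat.mul_one]
      omega
    exact_mod_cast this
  have f7 : 1 / (8 * (n : ℝ)) * N ≤ (t + 1) / 8 := by
    rw [div_mul_eq_mul_div, one_mul, div_le_div_iff₀ (by positivity) (by norm_num)]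
    nlinarith
  have f8 : (1 : ℝ) ≤ n := by exact_mod_cast hn0
  have f9 : (((N2 A x.1).ncard : ℝ) + 1) * t ≤ (N1 A x.1).ncard * t :=
    mul_le_mul_of_nonneg_right f4 (by linarith)
  have f10 := f9.trans (f1.trans (hx.trans (add_le_add f2 f7)))
  nlinarith

end P038
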